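import Vale.Agent.P181.WC.Defs

set_option autoImplicit false

/-! Row [V] of the line WC: a form invariant under the exchange of two positions of one column is
killed by the column system. -/

namespace Vale.Agent.P181.WC.H664

open Finset Vale.Agent.P181.WC

variable {P : Type} [Fintype P] [DecidableEq P]

theorem good_mem : ∀ (C : List (Σ ℓ : ℕ, (Fin ℓ → P))) (S : Finset P), Good S C →
    ∀ c ∈ C, ∀ i, c.2 i ∈ S := by
  intro C
  induction C with
  | nil => intro S _ c hc; simp at hc
  | cons D t ih =>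
    intro S h c hc i
    obtain ⟨_, h2, h3⟩ := h
    rcases List.mem_cons.1 hc with rfl | hc
    · exact h2 i
    · exact (Finset.mem_filter.1 (ih _ h3 c hc i)).1

theorem con_zero : ∀ (C : List (Σ ℓ : ℕ, (Fin ℓ → P))) (f : (P → ℕ) → ℂ), (∀ w, f w = 0) →
    ∀ w, con f C w = 0 := by
  intro C
  induction C with
  | nil => intro f h w; exact h w
  | cons D t ih =>
    intro f h w
    show con (c1 f D.1 D.2) t w = 0
    refine ih _ (fun w' => ?_) w
    unfold c1
    exact Finset.sum_eq_zero fun σ _ => by rw [h, mul_zero]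

/-- Exchange of two positions of the column. -/
theorem extend_swap {ℓ : ℕ} (p : Fin ℓ → P) (hp : Function.Injective p) (i j : Fin ℓ)
    (g : Fin ℓ → ℕ) (w : P → ℕ) :
    Function.extend p (fun a => g (Equiv.swap i j a)) w =
      Function.extend p g w ∘ Equiv.swap (p i) (p j) := by
  funext z
  by_cases hz : ∃ a, p a = z
  · obtain ⟨a, rfl⟩ := hz
    rw [Function.comp_apply, hp.swap_apply, hp.extend_apply, hp.extend_apply]
  · have hi : z ≠ p i := fun h => hz ⟨i, h.symm⟩
    have hj : z ≠ p j := fun h => hz ⟨j, h.symm⟩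
    rw [Function.comp_apply, Equiv.swap_apply_of_ne_of_ne hi hj, Function.extend_apply' _ _ _ hz,
      Function.extend_apply' _ _ _ hz]

/-- Exchange of two positions outside the column. -/
theorem extend_swap_out {ℓ : ℕ} (p : Fin ℓ → P) (hp : Function.Injective p) (x y : P)
    (hx : ∀ a, p a ≠ x) (hy : ∀ a, p a ≠ y) (g : Fin ℓ → ℕ) (w : P → ℕ) :
    Function.extend p g (w ∘ Equiv.swap x y) = Function.extend p g w ∘ Equiv.swap x y := by
  funext z
  by_cases hz : ∃ a, p a = z
  · obtain ⟨a, rfl⟩ := hz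
    rw [Function.comp_apply, Equiv.swap_apply_of_ne_of_ne (hx a) (hy a), hp.extend_apply,
      hp.extend_apply]
  · have h2 : ¬ ∃ a, p a = Equiv.swap x y z := by
      rintro ⟨a, ha⟩
      apply hz
      refine ⟨a, ?_⟩
      have := congrArg (Equiv.swap x y) ha
      rw [Equiv.swap_apply_self, Equiv.swap_apply_of_ne_of_ne (hx a) (hy a)] at this
      exact this
    rw [Function.comp_apply, Function.extend_apply' _ _ _ hz, Function.extend_apply' _ _ _ h2,
      Function.comp_apply]

theorem c1_swap_zero (f : (P → ℕ) → ℂ) {ℓ : ℕ} (p : Fin ℓ → P) (hp : Function.Injective p)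
    (i j : Fin ℓ) (hij : i ≠ j) (hf : ∀ w : P → ℕ, f (w ∘ Equiv.swap (p i) (p j)) = f w)
    (w : P → ℕ) : c1 f ℓ p w = 0 := by
  have key : c1 f ℓ p w = - c1 f ℓ p w := by
    conv_lhs => unfold c1
    rw [← Equiv.sum_comp (Equiv.mulRight (Equiv.swap i j))]
    unfold c1
    rw [← Finset.sum_neg_distrib]
    refine Finset.sum_congr rfl fun σ _ => ?_
    have h1 : (fun a : Fin ℓ => ((((Equiv.mulRight (Equiv.swap i j)) σ) a : Fin ℓ) : ℕ)) =
        fun a => (fun b => ((σ b : Fin ℓ) : ℕ)) (Equiv.swap i j a) := by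
      funext a
      simp [Equiv.Perm.mul_apply]
    rw [h1, extend_swap p hp i j (fun b => ((σ b : Fin ℓ) : ℕ)) w, hf]
    have h2 : Equiv.Perm.sign ((Equiv.mulRight (Equiv.swap i j)) σ) = - Equiv.Perm.sign σ := by
      rw [Equiv.coe_mulRight, Equiv.Perm.sign_mul, Equiv.Perm.sign_swap hij, mul_neg, mul_one]
    rw [h2]
    push_cast
    ring
  have h3 : (2 : ℂ) * c1 f ℓ p w = 0 := by linear_combination key
  exact (mul_eq_zero.1 h3).resolve_left two_ne_zero

theorem c1_swap_out (f : (P → ℕ) → ℂ) {ℓ : ℕ} (p : Fin ℓ → P) (hp : Function.Injective p)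
    (x y : P) (hx : ∀ a, p a ≠ x) (hy : ∀ a, p a ≠ y)
    (hf : ∀ w : P → ℕ, f (w ∘ Equiv.swap x y) = f w) (w : P → ℕ) :
    c1 f ℓ p (w ∘ Equiv.swap x y) = c1 f ℓ p w := by
  unfold c1
  refine Finset.sum_congr rfl fun σ _ => ?_
  rw [extend_swap_out p hp x y hx hy, hf]

theorem van : VanStmt := by
  intro P _ _ S f C
  induction C generalizing S f with
  | nil =>
    intro x y _ _ _ h w
    obtain ⟨c, hc, _⟩ := h
    simp at hc
  | cons D t ih =>
    intro x y hG hxy hf h w
    obtain ⟨c, hc, ⟨i, hi⟩, ⟨j, hj⟩⟩ := h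
    obtain ⟨h1, h2, h3⟩ := hG
    show con (c1 f D.1 D.2) t w = 0
    rcases List.mem_cons.1 hc with rfl | hct
    · subst hi hj
      have hij : i ≠ j := fun h => hxy (by rw [h])
      exact con_zero t _ (fun w' => c1_swap_zero f c.2 h1 i j hij hf w') w
    · have hx : ∀ a, D.2 a ≠ x := by
        have := (Finset.mem_filter.1 (good_mem t _ h3 c hct i)).2
        rw [hi] at this
        exact this
      have hy : ∀ a, D.2 a ≠ y := by
        have := (Finset.mem_filter.1 (good_mem t _ h3 c hct j)).2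
        rw [hj] at this
        exact this
      exact ih _ _ x y h3 hxy (fun w' => c1_swap_out f D.2 h1 x y hx hy hf w')
        ⟨c, hct, ⟨i, hi⟩, ⟨j, hj⟩⟩ w

end Vale.Agent.P181.WC.H664
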